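import Vale.Agent.Lib.P254.Main

namespace Vale.Agent.Lib.P254

private lemma key_nat_small (n : ℕ) (h3 : 3 ≤ n) (h23 : n ≤ 23) :
    (n + 2) ^ 2 * (n + 3) ^ (n + 1) ≤ 8 * (n + 1) ^ (n + 3) := by
  interval_cases n <;> norm_num

private lemma exp_two_lt : Real.exp 2 < 7.3891 := by
  have h1 : Real.exp 1 < 2.7182818286 := Real.exp_one_lt_d9
  have h2 : Real.exp 2 = Real.exp 1 ^ 2 := by
    rw [← Real.exp_nat_mul]; norm_num
  rw [h2]
  have h0 : 0 < Real.exp 1 := Real.exp_pos 1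
  nlinarith

private lemma key_real (n : ℕ) (h3 : 3 ≤ n) :
    ((n : ℝ) + 2) ^ 2 * ((n : ℝ) + 3) ^ (n + 1) ≤ 8 * ((n : ℝ) + 1) ^ (n + 3) := by
  by_cases h : n ≤ 23
  · have := key_nat_small n h3 h
    exact_mod_cast this
  · push Not at h
    have hn : (24 : ℝ) ≤ n := by exact_mod_cast h
    have hpos : (0 : ℝ) < (n : ℝ) + 1 := by positivity
    have h1 : ((n : ℝ) + 3) ^ (n + 1) ≤ ((n : ℝ) + 1) ^ (n + 1) * Real.exp 2 := by
      have hle : (n : ℝ) + 3 ≤ ((n : ℝ) + 1) * Real.exp (2 / ((n : ℝ) + 1)) := by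
        have hexp := Real.add_one_le_exp (2 / ((n : ℝ) + 1))
        have h' : ((n : ℝ) + 1) * (2 / ((n : ℝ) + 1) + 1) = (n : ℝ) + 3 := by
          field_simp; ring
        calc (n : ℝ) + 3 = ((n : ℝ) + 1) * (2 / ((n : ℝ) + 1) + 1) := h'.symm
          _ ≤ _ := by gcongr
      calc ((n : ℝ) + 3) ^ (n + 1)
          ≤ (((n : ℝ) + 1) * Real.exp (2 / ((n : ℝ) + 1))) ^ (n + 1) := by gcongr
        _ = ((n : ℝ) + 1) ^ (n + 1) * Real.exp 2 := by
            rw [mul_pow, ← Real.exp_nat_mul]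
            congr 2
            push_cast
            field_simp
    have h2 : ((n : ℝ) + 2) ^ 2 ≤ (26 / 25) ^ 2 * ((n : ℝ) + 1) ^ 2 := by
      rw [← mul_pow]
      gcongr
      linarith
    have h4 := exp_two_lt
    calc ((n : ℝ) + 2) ^ 2 * ((n : ℝ) + 3) ^ (n + 1)
        ≤ ((26 / 25) ^ 2 * ((n : ℝ) + 1) ^ 2) * (((n : ℝ) + 1) ^ (n + 1) * Real.exp 2) := by
          gcongr
      _ = ((26 / 25) ^ 2 * Real.exp 2) * ((n : ℝ) + 1) ^ (n + 3) := by ring
      _ ≤ 8 * ((n : ℝ) + 1) ^ (n + 3) := by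
          gcongr
          nlinarith

private lemma simplexRatio_step (n : ℕ) (h3 : 3 ≤ n) :
    simplexRatio n / 8 ≤ simplexRatio (n + 1) := by
  have key := key_real n h3
  have hF : (0 : ℝ) < (n.factorial : ℝ) := by exact_mod_cast n.factorial_pos
  have hL : simplexRatio n / 8
      = (n.factorial : ℝ) ^ 2 / (8 * ((n : ℝ) + 1) ^ (n + 1) * ((n : ℝ) + 2) ^ n) := by
    unfold simplexRatio
    rw [one_div, inv_pow, mul_pow]
    field_simp
    ring
  have hR : simplexRatio (n + 1)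
      = ((n : ℝ) + 1) ^ 2 * (n.factorial : ℝ) ^ 2
        / (((n : ℝ) + 2) ^ (n + 2) * ((n : ℝ) + 3) ^ (n + 1)) := by
    unfold simplexRatio
    rw [one_div, inv_pow, mul_pow, Nat.factorial_succ]
    push_cast
    have e1 : (n : ℝ) + 1 + 1 = (n : ℝ) + 2 := by ring
    have e2 : (n : ℝ) + 1 + 2 = (n : ℝ) + 3 := by ring
    rw [e1, e2]
    field_simp
    ring
  rw [hL, hR, div_le_div_iff₀ (by positivity) (by positivity)]
  calc (n.factorial : ℝ) ^ 2 * (((n : ℝ) + 2) ^ (n + 2) * ((n : ℝ) + 3) ^ (n + 1))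
      = ((n.factorial : ℝ) ^ 2 * ((n : ℝ) + 2) ^ n)
          * (((n : ℝ) + 2) ^ 2 * ((n : ℝ) + 3) ^ (n + 1)) := by ring
    _ ≤ ((n.factorial : ℝ) ^ 2 * ((n : ℝ) + 2) ^ n) * (8 * ((n : ℝ) + 1) ^ (n + 3)) := by
        gcongr
    _ = ((n : ℝ) + 1) ^ 2 * (n.factorial : ℝ) ^ 2
          * (8 * ((n : ℝ) + 1) ^ (n + 1) * ((n : ℝ) + 2) ^ n) := by ring

private lemma numeric_bound_ge_three (n : ℕ) (h3 : 3 ≤ n) :
    (81 / 64 : ℝ) * (3 / 2) ^ (n - 2) / 12 ^ n < simplexRatio n := by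
  induction n, h3 using Nat.le_induction with
  | base => norm_num [simplexRatio, Nat.factorial]
  | succ k hk ih =>
    have e : k + 1 - 2 = (k - 2) + 1 := by omega
    rw [e, pow_succ, pow_succ]
    have hs := simplexRatio_step k hk
    calc (81 / 64 : ℝ) * ((3 / 2) ^ (k - 2) * (3 / 2)) / (12 ^ k * 12)
        = ((81 / 64 : ℝ) * (3 / 2) ^ (k - 2) / 12 ^ k) / 8 := by
          field_simp; ring
      _ < simplexRatio k / 8 := by gcongr
      _ ≤ simplexRatio (k + 1) := hs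

/-- The bound obtained for 1-symmetric bodies is strictly below the simplex value. -/
theorem numeric_bound (n : ℕ) (hn : 2 ≤ n) :
    (81 / 64 : ℝ) * (3 / 2) ^ (n - 2) / 12 ^ n < simplexRatio n := by
  rcases Nat.eq_or_lt_of_le hn with h2 | h3
  · subst h2
    norm_num [simplexRatio, Nat.factorial]
  · exact numeric_bound_ge_three n h3

end Vale.Agent.Lib.P254
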